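import Vale.Agent.P144D.I.N5b.Geo
import Vale.Agent.P144D.I.Conv
import Vale.Agent.P144Z.E1.Easy

/-!
Fields restricted to one side of a wall, and the duality bound.
-/

namespace Vale.Agent.P144Z

open Finset Matrix

namespace IN5b

variable {M : ℕ} [NeZero M]

theorem Dm_hedge (A : Gauge M) (g : Tor M × Fin 4 → ℝ) (x : Tor M) (a : Fin 4) :
    (Dm A *ᵥ g) (x, a) = ∑ b, sA a b * g (x, b) +
      tc * (![1, 1, -1, -1] a * (A (hedge (x, a)) * g (x + prj M (st4 a), a + 2))) := by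
  have e0 : x + prj M (-1, 0) = x - uv M 0 := by simp [prj, uv, sub_eq_add_neg]
  have e1 : x + prj M (0, -1) = x - uv M 1 := by simp [prj, uv, sub_eq_add_neg]
  rw [E4.Dm_apply]
  fin_cases a
  · simp [hedge, st4, G.uv_zero]
  · simp [hedge, st4, G.uv_one]
  · simp [hedge, st4, e0]
  · simp [hedge, st4, e1]

open Classical in
/-- The field on the corners of the faces of `I`. -/
noncomputable def cut (I : Finset (Tor M)) (φ : Tor M × Fin 4 → ℝ) (s : Tor M × Fin 4) : ℝ :=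
  if TouchT I s.1 then φ s else 0

omit [NeZero M] in
theorem cut_pos {I : Finset (Tor M)} {x : Tor M} (h : TouchT I x) (φ : Tor M × Fin 4 → ℝ)
    (a : Fin 4) : cut I φ (x, a) = φ (x, a) := if_pos h

omit [NeZero M] in
theorem cut_neg {I : Finset (Tor M)} {x : Tor M} (h : ¬ TouchT I x) (φ : Tor M × Fin 4 → ℝ)
    (a : Fin 4) : cut I φ (x, a) = 0 := if_neg h

theorem cut_D0 {I : Finset (Tor M)} {x : Tor M} (h : ¬ TouchT I x) (φ : Tor M × Fin 4 → ℝ)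
    (a : Fin 4) : (Dm (pwI I) *ᵥ cut I φ) (x, a) = 0 := by
  rw [Dm_hedge, IConv.pwI_hedge_zero.2 ⟨fun h' => h ⟨_, h'⟩, fun h' => h ⟨_, h'⟩⟩]
  simp [cut_neg h]

theorem cut_D1 {I I' : Finset (Tor M)} {z x : Tor M} {ρ : ℕ} (hS : Side I I' z ρ)
    (hx : tdist x z ≤ ρ) (h : TouchT I' x) (φ : Tor M × Fin 4 → ℝ) (a : Fin 4) :
    (Dm (pwI I') *ᵥ cut I' φ) (x, a) = (Dm (pwI I) *ᵥ φ) (x, a) := by
  have s := hS x hx h
  rw [Dm_hedge, Dm_hedge]
  simp only [cut_pos h]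
  rcases IConv.pwI_val I' (hedge (x, a)) with h0 | h1
  · rw [h0, IConv.pwI_hedge_zero.2 (by rw [s, s]; exact IConv.pwI_hedge_zero.1 h0), zero_mul,
      zero_mul]
  · have h2 := IConv.pwI_hedge_one.1 h1
    have key : ∀ j k, st4 a - cn k = -cn j → x - prj M (cn j) ∈ I' →
        TouchT I' (x + prj M (st4 a)) := fun j k e h' =>
      ⟨k, by rwa [add_sub_assoc, ← G.prj_sub, e, IConv.prj_neg, ← sub_eq_add_neg]⟩
    have ex : ∀ a : Fin 4, (∃ k, st4 a - cn k = -cn (a - 1)) ∧ ∃ k, st4 a - cn k = -cn a := by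
      decide
    obtain ⟨⟨k, hk⟩, k', hk'⟩ := ex a
    rw [h1, IConv.pwI_hedge_one.2 (by rw [s, s]; exact h2),
      cut_pos (h2.elim (key _ k hk) (key _ k' hk'))]

/-- Neighbouring faces have a common corner. -/
theorem side_step {I I' : Finset (Tor M)} {z p : Tor M} {ρ : ℕ} (hS : Side I I' z ρ)
    {v : ℤ × ℤ} (hv : tdist (p + prj M v) z + 1 ≤ ρ) (h : p + prj M v ∈ I') (a : Fin 4) :
    p + prj M v ∈ I ∧ (p + prj M (v + st4 a) ∈ I ↔ p + prj M (v + st4 a) ∈ I') := by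
  obtain ⟨k, k', hk⟩ := exists_cn a
  have e1 : p + prj M v + prj M (cn k) - prj M (cn k') = p + prj M (v + st4 a) := by
    rw [← hk, G.prj_add, G.prj_sub]; abel
  have s := hS (p + prj M v + prj M (cn k)) (by
    have := tdist_triangle (p + prj M v + prj M (cn k)) (p + prj M v) z
    have := GeoA.tdist_le_zd (p + prj M v) (cn k)
    have := zd_cn k
    omega) ⟨k, by rwa [add_sub_cancel_right]⟩
  have s1 := s k
  rw [add_sub_cancel_right] at s1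
  exact ⟨s1.2 h, e1 ▸ s k'⟩

/-- No vertex near the two marked points touches both sides. -/
theorem disj {I Ia Ib : Finset (Tor M)} {a b x : Tor M} {κ : ℝ} {e : Fin 4} {ℓ q : ℕ}
    (ha : Side I Ia a (16 * q)) (hb : Side I Ib b (16 * q)) (hT : MkT Ib κ (16 * q) b e)
    (k0 : 0 ≤ κ) (k1 : κ ≤ 1 / 100) (hn : ¬ (tdist b a ≤ 16 * q ∧ TouchT Ia b)) (hℓ : 8 ≤ ℓ)
    (hq : 3 * ℓ ≤ q) (xa : tdist x a ≤ 2 * ℓ + 3) (xb : tdist x b ≤ 3 * ℓ) (ta : TouchT Ia x)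
    (tb : TouchT Ib x) : False := by
  obtain ⟨S, ν, hS, hI⟩ := cn_of hT k0 k1 (by omega)
  obtain ⟨k, hk⟩ := tb
  obtain ⟨j, hj⟩ := hS.ins
  have ba : tdist b a ≤ 5 * ℓ + 3 := by
    have := tdist_triangle b x a
    rw [tdist_comm b x] at this
    omega
  have z0 : zd (lft (x - prj M (cn k) - b)) 0 ≤ 3 * ℓ + 1 := by
    rw [GeoA.zd_lft]
    have := tdist_triangle (x - prj M (cn k)) x b
    have := GeoA.tdist_le_zd x (-cn k)
    rw [IConv.prj_neg, ← sub_eq_add_neg, zd_neg0] at this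
    have := zd_cn k
    omega
  have p := hS.rch (ρ := 3 * ℓ + 1) (by omega)
    ((hI _ (by omega)).1 (by rwa [G.add_prj_lft])) hj z0
    (by rw [zd_neg0]; exact (zd_cn j).trans (by omega))
  have key : ∀ v, GeoA.Rch (fun x => x ∈ S ∧ zd x 0 ≤ 9 * (3 * ℓ + 1))
      (lft (x - prj M (cn k) - b)) v → b + prj M v ∈ Ia := by
    intro v hv
    induction hv with
    | refl =>
      rw [G.add_prj_lft]
      exact (ha x (by omega) ta k).1 ((hb x (by omega) ⟨k, hk⟩ k).2 hk)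
    | @tail u v _ h2 ih =>
      obtain ⟨⟨u1, u2⟩, ⟨v1, v2⟩, h3⟩ := h2
      obtain ⟨d, rfl⟩ : ∃ d, v = u + st4 d := by
        rcases h3 with h | h | h | h
        exacts [⟨0, h⟩, ⟨1, h⟩, ⟨2, h⟩, ⟨3, h⟩]
      have t1 := GeoA.tdist_le_zd b u
      have t2 := tdist_triangle (b + prj M u) b a
      exact (side_step ha (by omega) ih d).2.1 ((side_step hb (by omega)
        ((hI _ (by omega)).2 u1) d).2.2 ((hI _ (by omega)).2 v1))
  exact hn ⟨by omega, j, by rw [sub_eq_add_neg, ← IConv.prj_neg]; exact key _ p⟩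

/-- The duality bound for the norm of the Green function on a set that does not meet the side of
the source. -/
theorem dual {I Ia : Finset (Tor M)} {a : Tor M} {ρ ℓ : ℕ} {d : Fin 4} {ν Γ : ℝ}
    {φ f : Tor M × Fin 4 → ℝ} (ha : Side I Ia a ρ) (hρ : 2 * ℓ + 3 ≤ ρ) (ta : TouchT Ia a)
    (hℓ : 1 ≤ ℓ) (hD : Dom (pwI Ia) ℓ a (Pi.single (a, d) 1) ν)
    (hG : ∀ ψ, ψ ⬝ᵥ ψ ≤ (Γ * ℓ) ^ 2 * ((Dm (pwI I) *ᵥ ψ) ⬝ᵥ (Dm (pwI I) *ᵥ ψ)))
    (hφ : Dm (pwI I) *ᵥ φ = Pi.single (a, d) 1) (h1 : ∀ s, f s = 0 ∨ f s = φ s)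
    (h2 : ∀ s : Tor M × Fin 4, tdist s.1 a ≤ 2 * ℓ + 3 → TouchT Ia s.1 → f s = 0) :
    f ⬝ᵥ f ≤ (Γ * ν) ^ 2 * ℓ := by
  have f0 : 0 ≤ f ⬝ᵥ f := E4.l2sq_univ f ▸ E4.l2sq_nonneg _ _
  obtain ⟨g, g1, g2⟩ := exists_solve (pwI I) univ f (c := f ⬝ᵥ f * (Γ * ℓ) ^ 2) (by positivity)
    fun ζ _ => by
      have := sum_mul_sq_le_sq_mul_sq univ f ζ
      simp only [pow_two (f _), pow_two (ζ _)] at this
      rw [E4.l2sq_univ, mul_assoc]
      exact this.trans (mul_le_mul_of_nonneg_left (hG ζ) f0)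
  have g3 : Dm (pwI I) *ᵥ g = f := funext fun t => g2 t (mem_univ _)
  have e1 : f ⬝ᵥ f = -g (a, d) := by
    have : f ⬝ᵥ f = φ ⬝ᵥ f := sum_congr rfl fun s _ => by
      rcases h1 s with h | h <;> simp [h]
    rw [this, ← g3, dotProduct_mulVec, ← mulVec_transpose, E1.Dm_anti, neg_mulVec, hφ,
      neg_dotProduct, single_one_dotProduct]
  have d1 := hD (cut Ia g)
  rw [single_one_dotProduct, cut_pos ta, E4.hsq_of_D _ _ fun s hs => by
    by_cases h : TouchT Ia s.1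
    · rw [cut_D1 ha (hs.trans hρ) h, g3, h2 s hs h]
    · exact cut_D0 h _ _] at d1
  have d2 : l2sq (ball a (2 * ℓ)) (cut Ia g) ≤ l2sq univ g := by
    refine le_trans (sum_le_sum fun x _ => sum_le_sum fun b _ => ?_)
      (E4.l2sq_mono (subset_univ (ball a (2 * ℓ))) g)
    by_cases h : TouchT Ia x
    · rw [cut_pos h]
    · rw [cut_neg h]; simpa using sq_nonneg _
  have l0 : (0 : ℝ) < ℓ := by exact_mod_cast hℓ
  have d3 : (f ⬝ᵥ f) ^ 2 * ℓ ≤ ν ^ 2 * (f ⬝ᵥ f * (Γ * ℓ) ^ 2) := by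
    rw [e1, neg_sq, ← e1]
    exact d1.trans (mul_le_mul_of_nonneg_left (d2.trans g1) (sq_nonneg ν))
  rcases f0.eq_or_lt with h | h
  · rw [← h]; positivity
  · refine le_of_mul_le_mul_left ?_ (mul_pos h l0)
    nlinarith

/-- A Harnack chain of squares. -/
theorem chain_sq {c : ℝ} (hc : 0 < c) (H : Harn 5 c) {m n : ℕ} (hm : 1 ≤ m) {w : ℤ × ℤ → ℝ}
    {A : ℝ} (hA : 0 ≤ A) {p : ℕ → ℤ × ℤ} (hp : ∀ i < n, zd (p (i + 1)) (p i) ≤ 4 * m)
    (h0 : ∀ i ≤ n, ∀ v, zd v (p i) ≤ 6 * m + 1 → 0 ≤ w v)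
    (h1 : ∀ i ≤ n, ∀ v, zd v (p i) ≤ 6 * m → SupH w v) (h2 : ∀ v, zd v (p 0) ≤ m → A ≤ w v) :
    ∀ i ≤ n, ∀ v, zd v (p i) ≤ 5 * m → c ^ (i + 1) * A ≤ w v := by
  intro i
  induction i with
  | zero =>
    intro hi
    rw [zero_add, pow_one]
    exact H m w _ A hm hA (h0 0 hi) (h1 0 hi) h2
  | succ i ih =>
    intro hi
    rw [pow_succ' c (i + 1), mul_assoc]
    refine H m w _ _ hm (by positivity) (h0 _ hi) (h1 _ hi) fun v hv => ih (by omega) v ?_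
    have := GeoA.zd_tri v (p (i + 1)) (p i)
    have := hp i (by omega)
    omega

end IN5b

end Vale.Agent.P144Z
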