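import Vale.Agent.P144D.I.N5b.NearB
import Vale.Agent.P144D.I.N5b.Cut
import Vale.Agent.P144D.I.DefsN2

/-!
The lower bound on the Green function between two far marked half-edges.
-/

namespace Vale.Agent.P144Z

open Finset Matrix

section

variable {M : ℕ} [NeZero M]

theorem MkAt.congrA {A A' : Gauge M} {ℓ ℓ' R : ℕ} {s : Tor M × Fin 4} {u : Tor M × Fin 4 → ℝ}
    {ν ν' c η : ℝ} (h : MkAt A ℓ ℓ' s u ν ν' c η)
    (hA : ∀ e : Tor M × Fin 2, tdist e.1 s.1 ≤ R → A e = A' e) (h1 : 3 * ℓ + 4 ≤ R)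
    (h2 : 2 * ℓ' + 4 ≤ R) : MkAt A' ℓ ℓ' s u ν ν' c η := by
  have k : ∀ r, r + 4 ≤ R → ∀ ρ g, hsq A' ρ (ball s.1 r) g = hsq A ρ (ball s.1 r) g :=
    fun r hr ρ g => (W.hsq_congrA (fun e he => hA e (he.trans hr)) ρ g).symm
  refine ⟨h.one, h.pos, h.pos', fun g => ?_, fun g => ?_, ?_, fun w => ?_, h.le, h.ge⟩
  · rw [k _ (by omega)]; exact h.dom g
  · rw [k _ h2]; exact h.dom' g
  · rw [k _ h1]; exact h.test
  · rw [k _ h1, k _ (by omega)]; exact h.rank w

/-- The sizes only depend on the weights near the half-edge. -/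
theorem MkCh.congrA {A A' : Gauge M} {L J : ℕ} {s : Tor M × Fin 4} {u : ℕ → Tor M × Fin 4 → ℝ}
    {ν : ℕ → ℝ} {c η : ℝ} (h : MkCh A L J s u ν c η) (hL : 1 ≤ L) (hJ : 1 ≤ J)
    (hA : ∀ e : Tor M × Fin 2, tdist e.1 s.1 ≤ 3 * sc L J + 4 → A e = A' e) :
    MkCh A' L J s u ν c η := by
  have m : ∀ j ≤ J, sc L j ≤ sc L J := fun j hj => IN5b.sc_mono hL hj
  refine ⟨h.zero.congrA hA (by have := m 0 (by omega); omega) (by have := m 1 hJ; omega), h.nu0,
    fun j h1 h2 => (h.pos j h1 h2).congrA hA (by have := m j (by omega); omega)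
      (by have := m (j + 1) h2; omega), fun j h1 h2 t ht => ?_⟩
  have := W.Dm_pow_congr (A := A) (A' := A') (z := s.1) (u j) 1 (3 * sc L (j + 1))
    (fun e he => hA e (by have := m (j + 1) h2; omega)) t.1 t.2 ht
  rw [pow_one, pow_one] at this
  exact this ▸ h.hom j h1 h2 t ht

variable {I Ia : Finset (Tor M)} {z : Tor M} {ρ : ℕ}

omit [NeZero M] in
theorem Side.mem_iff (h : Side I Ia z ρ) (hs : I ⊆ Ia) {f : Tor M} (hf : tdist f z ≤ ρ) :
    f ∈ I ↔ f ∈ Ia := by
  have e : f - prj M (cn 0) = f := by simp [cn, prj]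
  refine ⟨fun h' => hs h', fun h' => ?_⟩
  have := h f hf ⟨0, by rwa [e]⟩ 0
  rw [e] at this
  exact this.2 h'

theorem Side.pw (h : Side I Ia z ρ) (hs : I ⊆ Ia) (e : Tor M × Fin 2) (he : tdist e.1 z + 1 ≤ ρ) :
    pwI Ia e = pwI I e := by
  rw [IConv.pwI_eq, IConv.pwI_eq]
  exact if_congr (or_congr (h.mem_iff hs (by omega)).symm
    (h.mem_iff hs ((E1.near_sub _ _ _).trans he)).symm) rfl rfl

theorem MkT.of_side {κ : ℝ} {e : Fin 4} (m : MkT Ia κ ρ z e) (h : Side I Ia z ρ) (hs : I ⊆ Ia) :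
    MkT I κ ρ z e := by
  obtain ⟨S, ν, h1, h2, h3, h4⟩ := m.cone
  obtain ⟨k, hk⟩ := m.touch
  exact ⟨⟨S, ν, h1, h2, h3, fun v hv =>
    (h.mem_iff hs ((GeoA.tdist_le_zd z v).trans hv)).trans (h4 v hv)⟩,
    ⟨fun h' => m.rem.1 (hs h'), fun h' => m.rem.2 (hs h')⟩,
    k, (h z (by rw [tdist_self]; omega) ⟨k, hk⟩ k).2 hk⟩

end

open IN5b Classical in
theorem twoPt2_of (hS : SrcStmt) (hA : NearA2) (hB : NearB') (hH : HarnStmt) (hG : GapU) :
    TwoPt2 := by
  intro c hc
  obtain ⟨CA, LA, hA⟩ := hA c hc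
  obtain ⟨η, η0, CB, LB, hB⟩ := hB c hc
  obtain ⟨c5, c50, H5⟩ := hH 5
  obtain ⟨Γ, G1, hG⟩ := hG
  refine ⟨η, η0, CA + CB + 3, LA + LB + 1, fun L hL => ?_⟩
  obtain ⟨κA, κA0, hA⟩ := hA L (by omega)
  obtain ⟨κB, κB0, hB⟩ := hB L (by omega)
  refine ⟨min κA κB, by positivity, fun N => ?_⟩
  obtain ⟨cA, cA0, JA, hA⟩ := hA N (Γ * (N + 1) * N)
  set c' := (min c5 1) ^ (N + 1) * cA with hc'
  have c'0 : 0 < c' := by positivity
  obtain ⟨cB, cB0, JB, hB⟩ := hB N ((Γ * (N + 1) * N) ^ 2 / c')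
  refine ⟨√(cB * c'), by positivity, JA + JB + 2, fun J hJ M _ I Ia T q a b ea eb ua ub νa νb
    hC hs sa sb ma mb ab hq hqT hT hM cha chb φ hφ => ?_⟩
  have g1 := sc_ge (L := L) (j := J) (by omega) (by omega)
  have q1 : CA * sc L J + CB * sc L J + 3 * sc L J ≤ q := by rwa [add_mul, add_mul] at hq
  replace ma := ma.of_side sa hs
  replace mb := mb.of_side sb hs
  replace cha := cha.congrA (by omega) (by omega) fun e he =>
    sa.pw hs e (le_trans (Nat.succ_le_succ he) (by omega))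
  replace chb := chb.congrA (by omega) (by omega) fun e he =>
    sb.pw hs e (le_trans (Nat.succ_le_succ he) (by omega))
  have lf : ∀ z : Tor M, TouchT I z → zd (lft z) 0 ≤ T + 1 := by
    intro z ⟨k, hk⟩
    have := hC.box _ hk
    have := tdist_triangle z (z - prj M (cn k)) 0
    have := GeoA.tdist_le_zd z (-cn k)
    rw [IConv.prj_neg, ← sub_eq_add_neg, zd_neg0, tdist_comm] at this
    have := zd_cn k
    rw [IConv.zd_lft_zero]
    omega
  have xa := lf a ma.touch
  have xb := lf b mb.touch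
  have gap : ∀ ψ, ψ ⬝ᵥ ψ ≤
      (Γ * (N + 1) * N * sc L J) ^ 2 * ((Dm (pwI I) *ᵥ ψ) ⬝ᵥ (Dm (pwI I) *ᵥ ψ)) := fun ψ => by
    refine (hG M I T N (by omega) (by omega) hC.box hC.tr ψ).trans
      (mul_le_mul_of_nonneg_right (pow_le_pow_left₀ (by positivity) ?_ 2)
        (E4.l2sq_univ (Dm (pwI I) *ᵥ ψ) ▸ E4.l2sq_nonneg _ _))
    rw [mul_assoc _ (N : ℝ)]
    exact mul_le_mul_of_nonneg_left (by exact_mod_cast hT) (by positivity)
  obtain ⟨u, w, u1, w1, -, u2⟩ := hS M I T (lft a) (ea + 2) φ hC.box hC.conn hM (by omega) xa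
    (by rw [prj_lft]; exact ma.rem') (by rwa [prj_lft])
  have a1 := hA J (by omega) M I T q (lft a) ea ua νa η φ u w hC.box xa
    (by rw [prj_lft]; exact ma.mono (min_le_left _ _) le_rfl)
    (by omega) hqT hT hM (by rwa [prj_lft]) gap (by rwa [prj_lft]) u1 w1 u2
  obtain ⟨n, hn, p, p0, pn, p1, p2⟩ := hC.chain
  have pT : ∀ i ≤ n, zd (lft (p i)) 0 ≤ T := fun i hi => by
    rw [IConv.zd_lft_zero]
    exact hC.box _ (p2 i hi _ (by rw [tdist_self]; omega))
  have pe : ∀ i ≤ n, ∀ (z : Tor M) (e : Fin 4), zd (lft z) 0 ≤ T + 1 →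
      p i = z + prj M ((8 * q) • st4 e) → lft (p i) = lft z + (8 * q) • st4 e := by
    intro i hi z e hz h
    refine prj_inj (M := M) (s := 10 * T) ((pT i hi).trans (by omega)) ?_ (by omega) ?_
    · have := zd_add0 (lft z) ((8 * q) • st4 e)
      have := zd_smul (8 * q) e
      omega
    · rw [G.prj_add, prj_lft, prj_lft, h]
  have ch := chain_sq (m := q / 3) (n := n) (p := fun i => lft (p i)) c50 H5 (by omega)
    (w := w) (A := cA * νa J ^ 2) (by positivity)
    (fun i hi => by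
      have := GeoA.zd_tri (lft (p (i + 1))) 0 (lft (p i))
      have := pT i hi.le
      have := pT (i + 1) hi
      rw [GeoA.zd_comm 0] at *
      rw [← IConv.tdist_prj (M := M) (by omega), prj_lft, prj_lft]
      exact (p1 i hi).trans (by omega))
    (fun i hi v hv => (w1 v (by
      have := GeoA.zd_tri v (lft (p i)) 0; have := pT i hi; omega)).1)
    (fun i hi v hv => (w1 v (by
      have := GeoA.zd_tri v (lft (p i)) 0; have := pT i hi; omega)).2.2 (p2 i hi _ (by
        have := IConv.tdist_prj_le_zd (M := M) v (lft (p i))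
        rw [prj_lft] at this
        omega)))
    (fun v hv => a1 v (by rw [← pe 0 (by omega) a ea xa p0]; omega)) n le_rfl
  simp only [pe n le_rfl b eb xb pn] at ch
  have pb : ∀ v, prj M (lft b + v) = b + prj M v := fun v => by rw [G.prj_add, prj_lft]
  have zb : ∀ v, zd (lft b + v) 0 ≤ T + 1 + zd v 0 := fun v => by
    have := zd_add0 (lft b) v; omega
  set f : Tor M × Fin 4 → ℝ := fun s => if s.1 ∈ ball b (3 * sc L J) then φ s else 0 with hf
  have d1 : f ⬝ᵥ f ≤ (Γ * (N + 1) * N * νa J) ^ 2 * sc L J := by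
    have at1 := cha.pos (J - 1) (by omega) (by omega)
    rw [show J - 1 + 1 = J by omega] at at1
    refine dual (ρ := 2 * sc L J + 3) (fun _ _ _ _ => Iff.rfl) le_rfl ma.touch (by omega) at1.dom'
      gap hφ (fun s => ?_) fun s h1 _ => if_neg fun h => ?_
    · simp only [hf]
      split_ifs <;> simp
    · have := tdist_triangle a s.1 b
      have := E4.mem_ball.1 h
      rw [tdist_comm] at h1
      omega
  have b1 := hB J (by omega) M I q b eb ub νb φ (fun v => u (lft b + v)) (fun v => w (lft b + v))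
    (c' * νa J ^ 2) (mb.mono (min_le_right _ _) le_rfl) (by omega) (by omega) (by omega)
    chb (fun s hs => ?_) (by positivity) (fun v k hv _ => ?_) (fun v hv => ?_) (fun v hv => ?_) ?_
  · refine (le_abs_self _).trans (sq_le_sq.1 ?_)
    rw [mul_pow, mul_pow, Real.sq_sqrt (by positivity)]
    linarith
  · rw [hφ, Pi.single_eq_of_ne]
    rintro rfl
    simp only at hs
    omega
  · have := zb v
    rw [← pb, ← add_sub_assoc]
    exact u1 (lft b + v) k (by omega)
  · have := zb v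
    have h1 := w1 (lft b + v) (by omega)
    rw [pb] at h1
    simpa only [SupH, add_assoc] using h1
  · refine le_trans ?_ (ch (lft b + v) (by rw [zd_shift]; omega))
    rw [hc', mul_assoc]
    refine mul_le_mul_of_nonneg_right ?_ (by positivity)
    exact (pow_le_pow_of_le_one (by positivity) (min_le_right _ _) (by omega)).trans
      (pow_le_pow_left₀ (by positivity) (min_le_left _ _) _)
  · have e1 : l2sq (ball b (3 * sc L J)) φ = l2sq (ball b (3 * sc L J)) f :=
      E4.l2sq_congr fun s hs => (if_pos hs).symm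
    rw [e1]
    refine ((E4.l2sq_mono (subset_univ _) f).trans (E4.l2sq_univ f).le).trans (d1.trans_eq ?_)
    field_simp

end Vale.Agent.P144Z
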