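import Vale.Agent.P144D.I.N5b.Geo

/-!
The lower bound on the field at the second marked point.
-/

namespace Vale.Agent.P144Z

open Finset Matrix

namespace IN5b

theorem sc_succ (L j : ℕ) : sc L (j + 1) = L * sc L j := by unfold sc; ring

theorem sc_mono {L : ℕ} (hL : 1 ≤ L) {i j : ℕ} (h : i ≤ j) : sc L i ≤ sc L j :=
  Nat.mul_le_mul_left _ (Nat.pow_le_pow_right hL h)

theorem sc_ge {L : ℕ} (hL : 1 ≤ L) {j : ℕ} (h : 1 ≤ j) : 8 * L ≤ sc L j := by
  have := sc_mono hL h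
  simpa [sc] using this

variable {M : ℕ} [NeZero M]

theorem ball_le (z : Tor M) {r r' : ℕ} (h : r ≤ r') : ball z r ⊆ ball z r' := fun _ hx =>
  E4.mem_ball.2 ((E4.mem_ball.1 hx).trans h)

theorem rank_step {A : Gauge M} {L ℓ : ℕ} {s : Tor M × Fin 4} {u w : Tor M × Fin 4 → ℝ}
    {ν ν' c η : ℝ} (h : MkAt A ℓ (L * ℓ) s u ν ν' c η) (hℓ : 1 ≤ ℓ)
    (hw : Hom A s.1 (L * ℓ + 3) w) :
    l2sq (ball s.1 (3 * ℓ)) (w - w s • u) * (L : ℝ) ^ 2 ≤ η ^ 2 * l2sq (ball s.1 (L * ℓ)) w := by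
  have h1 := h.rank w
  rw [E4.hsq_of_D A _ hw] at h1
  have h2 := E4.l2sq_le_hsq A ℓ (ball s.1 (3 * ℓ)) (w - w s • u)
  have h3 : (0 : ℝ) < (ℓ : ℝ) ^ 2 := by positivity
  refine le_of_mul_le_mul_right ?_ h3
  push_cast at h1
  nlinarith [mul_le_mul_of_nonneg_right h2 (sq_nonneg ((L : ℝ) * ℓ))]

/-- The part of a solution that vanishes at the half-edge decays fast. -/
theorem decay {A : Gauge M} {L J : ℕ} {s : Tor M × Fin 4} {u : ℕ → Tor M × Fin 4 → ℝ}
    {ν : ℕ → ℝ} {c η : ℝ} (h : MkCh A L (J + 1) s u ν c η) (hL : 1 ≤ L)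
    {φ : Tor M × Fin 4 → ℝ} (hφ : Hom A s.1 (3 * sc L (J + 1)) φ) (k : ℕ) :
    ∀ j, 1 ≤ j → j + k = J → l2sq (ball s.1 (3 * sc L j)) (φ - φ s • u J) ≤
      (η ^ 2 / (L : ℝ) ^ 2) ^ (k + 1) * l2sq (ball s.1 (sc L (J + 1))) φ := by
  have L0 : (0 : ℝ) < (L : ℝ) ^ 2 := by positivity
  induction k with
  | zero =>
    intro j h1 h2
    obtain rfl : j = J := by omega
    have a := h.pos j h1 (by omega)
    have b := sc_ge hL h1
    have d := sc_ge hL (j := j + 1) (by omega)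
    rw [sc_succ] at a hφ d ⊢
    have := rank_step a (by omega) fun t ht => hφ t (by omega)
    rw [zero_add, pow_one, div_mul_eq_mul_div, le_div_iff₀ L0]
    exact this
  | succ k ih =>
    intro j h1 h2
    have a := h.pos j h1 (by omega)
    have b := sc_ge hL h1
    have d := sc_mono hL (i := j + 1) (j := J + 1) (by omega)
    have d' := sc_ge hL (j := J + 1) (by omega)
    have i := ih (j + 1) (by omega) (by omega)
    have e0 : (φ - φ s • u J) s = 0 := by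
      simp [(h.pos J (by omega) (by omega)).one]
    rw [sc_succ] at a i d
    have := rank_step (w := φ - φ s • u J) a (by omega) fun t ht => by
      rw [mulVec_sub, mulVec_smul, Pi.sub_apply, Pi.smul_apply, hφ t (by omega),
        h.hom J (by omega) (by omega) t (by omega)]
      simp
    rw [e0, zero_smul, sub_zero] at this
    have m := E4.l2sq_mono (ball_le s.1 (show L * sc L j ≤ 3 * (L * sc L j) by omega))
      (φ - φ s • u J)
    rw [pow_succ' _ (k + 1), mul_assoc, div_mul_eq_mul_div, le_div_iff₀ L0]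
    exact this.trans (mul_le_mul_of_nonneg_left (m.trans i) (sq_nonneg η))

/-- The statement of the lemma of Hopf with fixed constants. -/
def Hopf (c : ℝ) (C : ℕ) : Prop :=
  ∀ (ρ : ℕ) (w : ℤ × ℤ → ℝ) (ν : ℂ) (e : Fin 4) (w₀ A : ℝ), ‖ν‖ = 1 →
    1 / 2 ≤ ht ν (st4 e) → 0 ≤ w₀ → 0 ≤ A → C * (w₀ + 1) ≤ ρ → (∀ v, zd v 0 ≤ ρ + 1 → 0 ≤ w v) →
    (∀ v, zd v 0 ≤ ρ → w₀ ≤ ht ν v → SupH w v) →
    (∀ v, zd v ((ρ / 2) • st4 e) ≤ ρ / 64 → A ≤ w v) →
      ∀ v, 4 * zd v 0 ≤ ρ → c * A * (ht ν v - w₀ - C) ≤ ρ * w v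

/-- From the deep square at scale `L r` to the deep square at scale `r`. -/
theorem hopf_step {c : ℝ} {C : ℕ} (hc : 0 < c) (H : Hopf c C) {S : Set (ℤ × ℤ)} {ν : ℂ}
    {e : Fin 4} {L r : ℕ} (h : Cn S ν (1 / (100 * L)) e) (hL : 100 * (C + 3) ≤ L)
    (hr : 8 * L ≤ r) {w : ℤ × ℤ → ℝ} {A : ℝ} (hA : 0 ≤ A)
    (h0 : ∀ v, zd v 0 ≤ L * r + 1 → 0 ≤ w v) (h1 : ∀ v, zd v 0 ≤ L * r → v ∈ S → SupH w v)
    (h2 : ∀ v, zd v ((L * r / 2) • st4 e) ≤ L * r / 64 → A ≤ w v) :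
    ∀ v, zd v ((r / 2) • st4 e) ≤ r / 64 → c / 10 / L * A ≤ w v := by
  intro v hv
  have hL' : 100 * ((C : ℝ) + 3) ≤ L := by exact_mod_cast hL
  have hr' : 8 * (L : ℝ) ≤ r := by exact_mod_cast hr
  have C0 : (0 : ℝ) ≤ C := Nat.cast_nonneg C
  have L0 : (0 : ℝ) < L := by linarith
  have r0 : (0 : ℝ) < r := by linarith
  set w₀ : ℝ := 2 * (1 / (100 * L)) * ((L * r : ℕ) + 1) + 2 with hw₀
  have w1 : w₀ ≤ r / 50 + 3 := by
    have : 2 * (1 / (100 * (L : ℝ))) * ((L * r : ℕ) + 1) ≤ r / 50 + 1 := by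
      push_cast
      rw [show 2 * (1 / (100 * (L : ℝ))) * (L * r + 1) = (L * r + 1) / (50 * L) by
        field_simp; ring, div_le_iff₀ (by positivity)]
      nlinarith
    linarith
  have z1 : zd v 0 ≤ r := by
    have := GeoA.zd_tri v ((r / 2) • st4 e) 0; have := zd_smul (r / 2) e; omega
  have a := H (L * r) w ν e w₀ A h.nu h.he (by positivity) hA (by push_cast; nlinarith) h0
    (fun x hx hx' => h1 x hx (h.inH hx hx')) h2 v
    (by have := Nat.mul_le_mul_right r (show 4 ≤ L by omega); omega)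
  have b := h.ht_ray (r / 2) v
  have b1 : (r : ℝ) ≤ 2 * ((r / 2 : ℕ) : ℝ) + 1 := by exact_mod_cast (by omega)
  have b2 : 64 * (zd v ((r / 2) • st4 e) : ℝ) ≤ r := by exact_mod_cast (by omega)
  have b3 : (r : ℝ) / 10 ≤ ht ν v - w₀ - C := by linarith
  have b4 := mul_le_mul_of_nonneg_left b3 (mul_nonneg hc.le hA)
  push_cast at a
  rw [div_mul_eq_mul_div, div_le_iff₀ L0]
  nlinarith

theorem fin_arith {a b U P c1 Cl Q A ℓ ℓ' r x y c f : ℝ} (hP : 0 < P) (hℓ : 0 < ℓ) (hCl : 1 ≤ Cl)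
    (hc : 1 ≤ c) (hA : 0 ≤ A) (hU : 0 ≤ U) (hr : 0 ≤ r)
    (h1 : ℓ * (P * (c1 * A)) ≤ Cl * b) (h2 : b ≤ 2 * a + 2 * (f ^ 2 * U))
    (h3 : a ≤ P * r * (Q * A * ℓ)) (h4 : r * |Q| * (4 * Cl) ≤ c1) (h5 : U * x ^ 2 ≤ c ^ 2 * ℓ')
    (h6 : ℓ' ≤ ℓ) (h7 : y ^ 2 ≤ c ^ 2 * x ^ 2) :
    P * c1 / (4 * Cl * c ^ 4) * A * y ^ 2 ≤ f ^ 2 := by
  have a1 : r * Q * (4 * Cl) ≤ c1 :=
    (mul_le_mul_of_nonneg_right (mul_le_mul_of_nonneg_left (le_abs_self Q) hr)
      (by linarith)).trans h4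
  have a2 : 4 * Cl * a ≤ ℓ * (P * (c1 * A)) := by
    have := mul_le_mul_of_nonneg_left a1 (show 0 ≤ P * A * ℓ by positivity)
    nlinarith
  have a3 : ℓ * (P * (c1 * A)) ≤ 4 * Cl * (f ^ 2 * U) := by nlinarith
  have a4 : U * y ^ 2 ≤ c ^ 4 * ℓ := by
    have := mul_le_mul_of_nonneg_left h7 hU
    have := mul_le_mul_of_nonneg_left (h5.trans (mul_le_mul_of_nonneg_left h6 (sq_nonneg c)))
      (sq_nonneg c)
    nlinarith
  rw [div_mul_eq_mul_div, div_mul_eq_mul_div, div_le_iff₀ (by positivity)]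
  refine le_of_mul_le_mul_left ?_ hℓ
  have a5 := mul_le_mul_of_nonneg_right a3 (sq_nonneg y)
  have a6 := mul_le_mul_of_nonneg_left a4 (show 0 ≤ 4 * Cl * f ^ 2 by positivity)
  nlinarith

end IN5b

open IN5b in
theorem nearB_of (hH : HarnStmt) (hF : HopfStmt) : NearB' := by
  intro c hc
  obtain ⟨c2, c20, H2⟩ := hH 2
  obtain ⟨cH, cH0, CH, HF⟩ := hF
  obtain ⟨Cl, hCl, hl⟩ := lines
  refine ⟨√(cH / 20), by positivity, 1, 100 * (CH + 3), fun L hL => ?_⟩
  have L1 : 1 ≤ L := by omega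
  have L0 : (1 : ℝ) ≤ L := by exact_mod_cast L1
  refine ⟨1 / (100 * L), by positivity, fun N Q => ?_⟩
  set c1 := c2 ^ (1024 * N) with hc1
  have c10 : 0 < c1 := by positivity
  obtain ⟨k, hk⟩ := exists_pow_lt_of_lt_one (x := c1 / ((|Q| + 1) * (4 * Cl)))
    (y := (1 / 2 : ℝ)) (by positivity) (by norm_num)
  refine ⟨(cH / 10 / L / L) ^ (k + 1) * c1 / (4 * Cl * c ^ 4), by positivity, k + 2,
    fun J hJ M _ I q z e ub νb φ u w A hT hq hN hM hch hφ hA hu hw hd hQ => ?_⟩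
  obtain ⟨j, rfl⟩ : ∃ j, J = j + 1 + k + 1 := ⟨J - (k + 2), by omega⟩
  set J := j + 1 + k with hJ'
  have g1 := sc_ge L1 (j := J + 1) (by omega)
  obtain ⟨S, ν, hS, hI⟩ := cn_of hT (by positivity)
    (one_div_le_one_div_of_le (by norm_num) (by linarith)) (by omega)
  have top : ∀ v, zd v ((sc L (J + 1) / 2) • st4 e) ≤ sc L (J + 1) / 64 → c1 * A ≤ w v := by
    refine chain_ray (t₀ := sc L (J + 1) / 2) (t₁ := 8 * q) c20 H2 (by omega) hA
      (fun t t1 t2 v hv => ?_) (fun v hv => hd v (by omega)) _ _ le_rfl (by omega) ?_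
    · have := GeoA.zd_tri v (t • st4 e) 0
      have := zd_smul t e
      exact ⟨(hw v (by omega)).1, (hw v (by omega)).2.2
        ((hI v (by omega)).2 (hS.in_ray (t := t) (by omega) (by omega)))⟩
    · have := Nat.mul_le_mul_left N (show sc L (J + 1) ≤ 128 * (sc L (J + 1) / 64) by omega)
      have e1 : 1024 * N * (sc L (J + 1) / 64) = 8 * (N * (128 * (sc L (J + 1) / 64))) := by ring
      omega
  have low : ∀ i i', 1 ≤ i' → i' + i = J + 1 → ∀ v,
      zd v ((sc L i' / 2) • st4 e) ≤ sc L i' / 64 → (cH / 10 / L) ^ i * (c1 * A) ≤ w v := by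
    intro i
    induction i with
    | zero =>
      intro i' _ h2
      obtain rfl : i' = J + 1 := by omega
      simpa using top
    | succ i ih =>
      intro i' h1 h2
      have a := ih (i' + 1) (by omega) (by omega)
      have b := sc_mono L1 (i := i' + 1) (j := J + 1) (by omega)
      rw [sc_succ] at a b
      rw [pow_succ', mul_assoc]
      exact hopf_step cH0 HF hS hL (sc_ge L1 h1) (by positivity)
        (fun v hv => (hw v (by omega)).1)
        (fun v hv hv' => (hw v (by omega)).2.2 ((hI v (by omega)).2 hv')) a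
  have g2 := sc_ge L1 (j := j + 1) (by omega)
  have g3 := sc_mono L1 (i := j + 1) (j := J + 1) (by omega)
  have g4 := sc_mono L1 (i := j + 1) (j := J) (by omega)
  have g5 := sc_mono L1 (i := J) (j := J + 1) (by omega)
  have b1 := hl M I z S ν _ e (sc L (j + 1)) φ u w _ hS (by omega) (by omega)
    (fun v hv => hI v (by omega)) (fun v k hv => hu v k (by omega))
    (fun v hv => (hw v (by omega)).2.1) (low (k + 1) (j + 1) (by omega) (by omega))
    (by positivity)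
  have b2 := decay hch L1 (φ := φ) (fun t ht => hφ t (le_trans ht (by omega))) k (j + 1) (by omega)
    (by omega)
  have at1 := hch.pos J (by omega) (by omega)
  have b3 := E4.l2sq_add_le (ball z (sc L (j + 1))) (φ - φ (z, e + 2) • ub J) (φ (z, e + 2) • ub J)
  rw [sub_add_cancel, E4.l2sq_smul] at b3
  refine fin_arith (ℓ := sc L (J + 1)) (ℓ' := sc L J) (r := (1 / 2) ^ (k + 1)) (Q := Q)
    (x := νb J) (by positivity) (by exact_mod_cast (by omega)) hCl hc hA (E4.l2sq_nonneg _ _)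
    (by positivity) (le_of_eq_of_le ?_ b1) b3 ?_ ?_ ?_ (by exact_mod_cast g5) ?_
  · have : (sc L (J + 1) : ℝ) = sc L (j + 1) * L ^ (k + 1) := by
      rw [hJ']; unfold sc; push_cast; ring
    rw [this, div_pow _ (L : ℝ)]
    field_simp
  · refine (E4.l2sq_mono (ball_le z (by omega)) _).trans (b2.trans ?_)
    rw [← mul_pow, Real.sq_sqrt (by positivity),
      show cH / 20 / (L : ℝ) ^ 2 = cH / 10 / L / L * (1 / 2) by field_simp; ring]
    exact mul_le_mul_of_nonneg_left ((E4.l2sq_mono (ball_le z (by omega)) _).trans hQ)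
      (by positivity)
  · rw [lt_div_iff₀ (by positivity)] at hk
    have : (0 : ℝ) ≤ (1 / 2) ^ k * (4 * Cl) := by positivity
    have := abs_nonneg Q
    rw [pow_succ]
    nlinarith
  · refine le_trans (mul_le_mul_of_nonneg_right ?_ (sq_nonneg _)) at1.test
    exact (E4.l2sq_mono (ball_le z (by omega)) _).trans (E4.l2sq_le_hsq _ _ _ _)
  · have a1 : √((sc L J : ℝ) / sc L (J + 1)) ≤ 1 := Real.sqrt_le_one.2
      (div_le_one_of_le₀ (by exact_mod_cast g5) (by positivity))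
    have a2 := at1.le.trans (mul_le_of_le_one_right (by have := at1.pos.le; positivity) a1)
    rw [← mul_pow]
    exact pow_le_pow_left₀ at1.pos'.le a2 2

end Vale.Agent.P144Z
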