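import Vale.Agent.P144D.I.DefsN
import Vale.Agent.P144D.B.Pair
import Vale.Agent.P144Z.E4.Smooth

/-!
Lattice geometry in one cone, Harnack chains and sums along lines.
-/

namespace Vale.Agent.P144Z

open Finset Matrix

namespace IN5b

theorem ht_add (ν : ℂ) (u v : ℤ × ℤ) : ht ν (u + v) = ht ν u + ht ν v := by
  simp only [ht, Prod.fst_add, Prod.snd_add]; push_cast; ring

theorem ht_sub (ν : ℂ) (u v : ℤ × ℤ) : ht ν (u - v) = ht ν u - ht ν v := by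
  simp only [ht, Prod.fst_sub, Prod.snd_sub]; push_cast; ring

theorem ht_neg (ν : ℂ) (v : ℤ × ℤ) : ht ν (-v) = -ht ν v := by
  simp only [ht, Prod.fst_neg, Prod.snd_neg]; push_cast; ring

theorem ht_smul (ν : ℂ) (i : ℕ) (v : ℤ × ℤ) : ht ν (i • v) = i * ht ν v := by
  simp only [ht, Prod.smul_fst, Prod.smul_snd]; simp only [nsmul_eq_mul]; push_cast; ring

theorem abs_le_zd (v : ℤ × ℤ) : |(v.1 : ℝ)| ≤ zd v 0 ∧ |(v.2 : ℝ)| ≤ zd v 0 := by
  have h1 : |v.1| ≤ (zd v 0 : ℤ) := by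
    simp only [zd, Prod.fst_zero, Prod.snd_zero, sub_zero]; cases abs_cases v.1 <;> omega
  have h2 : |v.2| ≤ (zd v 0 : ℤ) := by
    simp only [zd, Prod.fst_zero, Prod.snd_zero, sub_zero]; cases abs_cases v.2 <;> omega
  exact ⟨by exact_mod_cast h1, by exact_mod_cast h2⟩

theorem len_le (v : ℤ × ℤ) : len v ≤ 2 * zd v 0 := by
  have := GeoA.len_le v
  have := abs_le_zd v
  linarith

theorem abs_ht {ν : ℂ} (hν : ‖ν‖ = 1) (v : ℤ × ℤ) : |ht ν v| ≤ 2 * zd v 0 := by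
  have h := abs_le_zd v
  have h1 := GeoA.abs_mul_le h.1 (GeoA.abs_re hν)
  have h2 := GeoA.abs_mul_le h.2 (GeoA.abs_im hν)
  have := abs_add_le ((v.1 : ℝ) * ν.re) (v.2 * ν.im)
  unfold ht
  linarith

theorem zd_sub0 (u v : ℤ × ℤ) : zd (u - v) 0 = zd u v := by simp [zd]

theorem zd_add0 (u v : ℤ × ℤ) : zd (u + v) 0 ≤ zd u 0 + zd v 0 := by
  simp only [zd, Prod.fst_add, Prod.snd_add, Prod.fst_zero, Prod.snd_zero, sub_zero]; omega

theorem zd_neg0 (v : ℤ × ℤ) : zd (-v) 0 = zd v 0 := by simp [zd]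

theorem zd_shift (p u v : ℤ × ℤ) : zd (p + u) (p + v) = zd u v := by simp [zd]

theorem zd_cn (k : Fin 4) : zd (cn k) 0 ≤ 1 := by revert k; decide

theorem zd_st4 (a : Fin 4) : zd (st4 a) 0 ≤ 1 := by revert a; decide

theorem zd_smul (t : ℕ) (a : Fin 4) : zd (t • st4 a) 0 ≤ t := by
  fin_cases a <;> simp [zd, st4]

theorem zd_ray {t t' m : ℕ} (h : t ≤ t') (h' : t' ≤ t + m) (a : Fin 4) :
    zd (t • st4 a) (t' • st4 a) ≤ m := by
  fin_cases a <;> simp [zd, st4] <;> omega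

theorem exists_cn (a : Fin 4) : ∃ k k' : Fin 4, cn k - cn k' = st4 a := by revert a; decide

/-- One cone with a point inside and a point outside next to the origin. -/
structure Cn (S : Set (ℤ × ℤ)) (ν : ℂ) (κ : ℝ) (e : Fin 4) : Prop where
  nu : ‖ν‖ = 1
  epi : Epi S ν κ
  he : 1 / 2 ≤ ht ν (st4 e)
  k0 : 0 ≤ κ
  k1 : κ ≤ 1 / 100
  ins : ∃ k, -cn k ∈ S
  out : ∃ k, -cn k ∉ S

variable {S : Set (ℤ × ℤ)} {ν : ℂ} {κ : ℝ} {e : Fin 4}

theorem Cn.inH (h : Cn S ν κ e) {ρ : ℕ} {v : ℤ × ℤ} (hv : zd v 0 ≤ ρ)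
    (hh : 2 * κ * (ρ + 1) + 2 ≤ ht ν v) : v ∈ S := by
  obtain ⟨k, hk⟩ := h.ins
  have h1 := h.epi _ hk (v + cn k) (by
    have a1 := len_le (v + cn k)
    have a2 : (zd (v + cn k) 0 : ℝ) ≤ ρ + 1 := by
      have := zd_add0 v (cn k); have := zd_cn k; exact_mod_cast (by omega)
    have a3 := abs_le.1 (abs_ht h.nu (cn k))
    have a4 : (zd (cn k) 0 : ℝ) ≤ 1 := by exact_mod_cast zd_cn k
    rw [ht_add]
    nlinarith [h.k0])
  simpa using h1

theorem Cn.outH (h : Cn S ν κ e) {ρ : ℕ} {v : ℤ × ℤ} (hv : zd v 0 ≤ ρ)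
    (hh : ht ν v ≤ -(2 * κ * (ρ + 1) + 2)) : v ∉ S := by
  obtain ⟨k, hk⟩ := h.out
  refine GeoA.epi_out h.epi hk ?_
  have a1 := len_le (-cn k - v)
  have a2 : (zd (-cn k - v) 0 : ℝ) ≤ ρ + 1 := by
    have := zd_add0 (-cn k) (-v); have := zd_cn k
    rw [zd_neg0, zd_neg0, ← sub_eq_add_neg] at *
    exact_mod_cast (by omega)
  have a3 := abs_le.1 (abs_ht h.nu (cn k))
  have a4 : (zd (cn k) 0 : ℝ) ≤ 1 := by exact_mod_cast zd_cn k
  rw [ht_sub, ht_neg]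
  nlinarith [h.k0]

theorem Cn.ht_ray (h : Cn S ν κ e) (t : ℕ) (v : ℤ × ℤ) :
    (t : ℝ) / 2 - 2 * zd v (t • st4 e) ≤ ht ν v := by
  have a := abs_le.1 (abs_ht h.nu (v - t • st4 e))
  rw [ht_sub, ht_smul, zd_sub0] at a
  nlinarith [h.he, (Nat.cast_nonneg t : (0 : ℝ) ≤ t)]

theorem Cn.in_ray (h : Cn S ν κ e) {t : ℕ} (ht16 : 16 ≤ t) {v : ℤ × ℤ}
    (hv : 8 * zd v (t • st4 e) ≤ t) : v ∈ S := by
  have a := h.ht_ray t v
  have b : zd v 0 ≤ 2 * t := by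
    have := GeoA.zd_tri v (t • st4 e) 0; have := zd_smul t e; omega
  refine h.inH b ?_
  have c : (8 : ℝ) * zd v (t • st4 e) ≤ t := by exact_mod_cast hv
  have d : (16 : ℝ) ≤ t := by exact_mod_cast ht16
  push_cast
  nlinarith [h.k0, h.k1]

theorem Cn.out_ray (h : Cn S ν κ e) {t : ℕ} (ht16 : 16 ≤ t) {v : ℤ × ℤ}
    (hv : 8 * zd (-v) (t • st4 e) ≤ t) : v ∉ S := by
  have a := h.ht_ray t (-v)
  have b : zd v 0 ≤ 2 * t := by
    have := GeoA.zd_tri (-v) (t • st4 e) 0; have := zd_smul t e; rw [zd_neg0] at *; omega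
  refine h.outH b ?_
  have c : (8 : ℝ) * zd (-v) (t • st4 e) ≤ t := by exact_mod_cast hv
  have d : (16 : ℝ) ≤ t := by exact_mod_cast ht16
  rw [ht_neg] at a
  push_cast
  nlinarith [h.k0, h.k1]

theorem Cn.up (h : Cn S ν κ e) {v : ℤ × ℤ} (hv : v ∈ S) : v + st4 e ∈ S := by
  refine h.epi _ hv _ ?_
  have a1 := len_le (st4 e)
  have a2 : (zd (st4 e) 0 : ℝ) ≤ 1 := by exact_mod_cast zd_st4 e
  nlinarith [h.k0, h.k1, h.he, GeoA.len_nonneg (st4 e)]

theorem Cn.rch_up (h : Cn S ν κ e) {R ρ : ℕ} {v : ℤ × ℤ} (hv : v ∈ S) (hρ : zd v 0 ≤ ρ) :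
    ∀ t : ℕ, ρ + t ≤ R → v + t • st4 e ∈ S ∧
      GeoA.Rch (fun x => x ∈ S ∧ zd x 0 ≤ R) v (v + t • st4 e) := by
  intro t
  induction t with
  | zero => exact fun _ => ⟨by simpa using hv, by
      rw [zero_smul, add_zero]; exact Relation.ReflTransGen.refl⟩
  | succ t ih =>
    intro hR
    obtain ⟨h1, h2⟩ := ih (by omega)
    have e1 : v + (t + 1) • st4 e = v + t • st4 e + st4 e := by rw [succ_nsmul, add_assoc]
    have z1 : ∀ s : ℕ, zd (v + s • st4 e) 0 ≤ ρ + s := fun s => by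
      have := zd_add0 v (s • st4 e); have := zd_smul s e; omega
    refine ⟨e1 ▸ h.up h1, h2.tail ⟨⟨h1, by have := z1 t; omega⟩,
      ⟨e1 ▸ h.up h1, by have := z1 (t + 1); omega⟩, ?_⟩⟩
    rw [e1]
    fin_cases e <;> simp [st4]

/-- Two points of the cone near the origin are connected in the cone. -/
theorem Cn.rch (h : Cn S ν κ e) {ρ : ℕ} (hρ : 2 ≤ ρ) {v v' : ℤ × ℤ} (hv : v ∈ S) (hv' : v' ∈ S)
    (h1 : zd v 0 ≤ ρ) (h2 : zd v' 0 ≤ ρ) :
    GeoA.Rch (fun x => x ∈ S ∧ zd x 0 ≤ 9 * ρ) v v' := by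
  have box : ∀ x, zd x ((8 * ρ) • st4 e) ≤ ρ → x ∈ S ∧ zd x 0 ≤ 9 * ρ := fun x hx =>
    ⟨h.in_ray (t := 8 * ρ) (by omega) (by omega), by
      have := GeoA.zd_tri x ((8 * ρ) • st4 e) 0; have := zd_smul (8 * ρ) e; omega⟩
  have z : ∀ x, zd x 0 ≤ ρ → zd (x + (8 * ρ) • st4 e) ((8 * ρ) • st4 e) ≤ ρ := fun x hx => by
    rw [← zd_sub0, add_sub_cancel_right]; exact hx
  exact ((h.rch_up hv h1 (8 * ρ) (by omega)).2.trans (GeoA.rch_box box (z v h1))).trans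
    (((h.rch_up hv' h2 (8 * ρ) (by omega)).2.trans (GeoA.rch_box box (z v' h2))).symm)

theorem cn_of {M : ℕ} {I : Finset (Tor M)} {r : ℕ} {z : Tor M} (h : MkT I κ r z e) (k0 : 0 ≤ κ)
    (k1 : κ ≤ 1 / 100) (hr : 1 ≤ r) : ∃ S ν, Cn S ν κ e ∧
      ∀ v : ℤ × ℤ, zd v 0 ≤ r → (z + prj M v ∈ I ↔ v ∈ S) := by
  obtain ⟨S, ν, h1, h2, h3, h4⟩ := h.cone
  have en : ∀ k, z - prj M (cn k) = z + prj M (-cn k) := fun k => by
    rw [← zero_sub (cn k), G.prj_sub, G.prj_zero, zero_sub, sub_eq_add_neg]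
  have hz : ∀ k, zd (-cn k) 0 ≤ r := fun k => by rw [zd_neg0]; exact (zd_cn k).trans hr
  obtain ⟨k, hk⟩ := h.touch
  exact ⟨S, ν, ⟨h1, h2, h3, k0, k1, ⟨k, (h4 _ (hz k)).1 (en k ▸ hk)⟩,
    ⟨e + 1, fun h' => h.rem.1 (en _ ▸ (h4 _ (hz _)).2 h')⟩⟩, h4⟩

/-- The statement of the Harnack inequality with fixed constants. -/
def Harn (K : ℕ) (c : ℝ) : Prop :=
  ∀ (m : ℕ) (w : ℤ × ℤ → ℝ) (p : ℤ × ℤ) (A : ℝ), 1 ≤ m → 0 ≤ A →
    (∀ v, zd v p ≤ (K + 1) * m + 1 → 0 ≤ w v) → (∀ v, zd v p ≤ (K + 1) * m → SupH w v) →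
    (∀ v, zd v p ≤ m → A ≤ w v) → ∀ v, zd v p ≤ K * m → c * A ≤ w v

/-- A Harnack chain along a ray. -/
theorem chain_ray {c : ℝ} (hc : 0 < c) (H : Harn 2 c) {m t₀ t₁ : ℕ} (hm : 1 ≤ m)
    {w : ℤ × ℤ → ℝ} {A : ℝ} (hA : 0 ≤ A)
    (hw : ∀ t, t₀ ≤ t → t ≤ t₁ → ∀ v, zd v (t • st4 e) ≤ 3 * m + 1 → 0 ≤ w v ∧ SupH w v)
    (h0 : ∀ v, zd v (t₁ • st4 e) ≤ m → A ≤ w v) (n : ℕ) :
    ∀ t, t₀ ≤ t → t ≤ t₁ → t₁ ≤ t + n * m → ∀ v, zd v (t • st4 e) ≤ m → c ^ n * A ≤ w v := by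
  induction n with
  | zero =>
    intro t _ h2 h3 v hv
    obtain rfl : t = t₁ := by omega
    simpa using h0 v hv
  | succ n ih =>
    intro t h1 h2 h3 v hv
    have e1 : (n + 1) * m = n * m + m := by ring
    have h4 := ih (min t₁ (t + m)) (by omega) (by omega) (by omega)
    have h5 := H m w (min t₁ (t + m) • st4 e) (c ^ n * A) hm (by positivity)
      (fun x hx => (hw (min t₁ (t + m)) (by omega) (by omega) x (by omega)).1)
      (fun x hx => (hw (min t₁ (t + m)) (by omega) (by omega) x (by omega)).2) h4 v (by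
        have := GeoA.zd_tri v (t • st4 e) (min t₁ (t + m) • st4 e)
        have := zd_ray (t := t) (t' := min t₁ (t + m)) (m := m) (by omega) (by omega) e
        omega)
    rw [pow_succ', mul_assoc]
    exact h5

/-- The points of the lines parallel to `e`. -/
def pt (e : Fin 4) (t : ℕ) (p : ℕ × ℕ) : ℤ × ℤ := t • st4 e + p.1 • st4 (e + 1) - p.2 • st4 e

theorem pt_inj (e : Fin 4) (t : ℕ) : Function.Injective (pt e t) := by
  rintro ⟨a, b⟩ ⟨a', b'⟩ h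
  fin_cases e <;> simp [pt, st4, Prod.ext_iff] at h ⊢ <;> omega

theorem zd_pt (e : Fin 4) {t s i : ℕ} (hs : s ≤ t) (hi : i ≤ 2 * t) : zd (pt e t (s, i)) 0 ≤ t := by
  fin_cases e <;> simp [pt, st4, zd] <;> omega

theorem pt_top (e : Fin 4) (t s : ℕ) : zd (pt e t (s, 0)) (t • st4 e) ≤ s := by
  fin_cases e <;> simp [pt, st4, zd]

theorem pt_bot (e : Fin 4) (t s : ℕ) : zd (-pt e t (s, 2 * t)) (t • st4 e) ≤ s := by
  fin_cases e <;> simp [pt, st4, zd] <;> omega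

theorem pt_succ (e : Fin 4) (t s i : ℕ) : pt e t (s, i) = pt e t (s, i + 1) + st4 e := by
  simp only [pt, succ_nsmul]; abel

theorem tele {f g : ℕ → ℝ} (n : ℕ) (h : ∀ i < n, f i - f (i + 1) ≤ g i) :
    f 0 - f n ≤ ∑ i ∈ range n, g i := by
  induction n with
  | zero => simp
  | succ n ih =>
    rw [sum_range_succ]
    have := ih fun i hi => h i (by omega)
    have := h n (by omega)
    linarith

variable {M : ℕ} [NeZero M]

theorem prj_inj {u v : ℤ × ℤ} {s : ℕ} (hu : zd u 0 ≤ s) (hv : zd v 0 ≤ s) (hM : 2 * s < M)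
    (h : prj M u = prj M v) : u = v := by
  simp only [zd, Prod.fst_zero, Prod.snd_zero, sub_zero] at hu hv
  have h1 : lft (prj M u) = u :=
    lft_prj (by cases abs_cases u.1 <;> omega) (by cases abs_cases u.2 <;> omega)
  have h2 : lft (prj M v) = v :=
    lft_prj (by cases abs_cases v.1 <;> omega) (by cases abs_cases v.2 <;> omega)
  rw [← h1, h, h2]

/-- A lower bound on a deep square gives a lower bound on the norm of the field. -/
theorem lines : ∃ C : ℝ, 1 ≤ C ∧ ∀ (M : ℕ) [NeZero M] (I : Finset (Tor M)) (z : Tor M)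
    (S : Set (ℤ × ℤ)) (ν : ℂ) (κ : ℝ) (e : Fin 4) (r : ℕ) (φ : Tor M × Fin 4 → ℝ)
    (u w : ℤ × ℤ → ℝ) (A : ℝ), Cn S ν κ e → 64 ≤ r → 2 * r < M →
    (∀ v : ℤ × ℤ, zd v 0 ≤ r → (z + prj M v ∈ I ↔ v ∈ S)) →
    (∀ v k, zd v 0 ≤ r → TouchT I (z + prj M v) →
      u v - w (v - cn k) = chi φ (z + prj M v) k ^ 2) →
    (∀ v, zd v 0 ≤ r → z + prj M v ∉ I → w v = 0) →
    (∀ v, zd v ((r / 2) • st4 e) ≤ r / 64 → A ≤ w v) → 0 ≤ A →
      r * A ≤ C * l2sq (ball z r) φ := by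
  classical
  obtain ⟨C, hC, hχ⟩ := chi_cmp
  refine ⟨64 * C, by linarith, fun M _ I z S ν κ e r φ u w A h hr hM hI hu hw hA hA0 => ?_⟩
  obtain ⟨k, k', hk⟩ := exists_cn e
  set t := r / 2 with ht
  set g : Tor M → ℝ := fun x => ∑ j, chi φ x j ^ 2 with hg
  have g0 : ∀ x, 0 ≤ g x := fun x => by positivity
  have step : ∀ f : ℤ × ℤ, zd f 0 ≤ t → w (f + st4 e) - w f ≤ g (z + prj M (f + cn k)) := by
    intro f hf
    have z1 : zd (f + cn k) 0 ≤ r := by have := zd_add0 f (cn k); have := zd_cn k; omega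
    have z2 : zd (f + st4 e) 0 ≤ r := by have := zd_add0 f (st4 e); have := zd_st4 e; omega
    have e1 : f + cn k - cn k' = f + st4 e := by rw [← hk]; abel
    have e2 : ∀ j, z + prj M (f + cn k) - prj M (cn j) = z + prj M (f + cn k - cn j) :=
      fun j => by rw [G.prj_sub, add_sub_assoc]
    by_cases hT : TouchT I (z + prj M (f + cn k))
    · have a1 := hu _ k z1 hT
      have a2 := hu _ k' z1 hT
      rw [add_sub_cancel_right] at a1
      rw [e1] at a2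
      have a3 : chi φ (z + prj M (f + cn k)) k ^ 2 ≤ g (z + prj M (f + cn k)) :=
        single_le_sum (f := fun j => chi φ (z + prj M (f + cn k)) j ^ 2)
          (fun j _ => sq_nonneg _) (mem_univ k)
      nlinarith [sq_nonneg (chi φ (z + prj M (f + cn k)) k')]
    · rw [hw f (by omega) fun h' => hT ⟨k, by rwa [e2, add_sub_cancel_right]⟩,
        hw _ z2 fun h' => hT ⟨k', by rwa [e2, e1]⟩, sub_self]
      exact g0 _
  have line : ∀ s ∈ range (r / 64 + 1),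
      A ≤ ∑ i ∈ range (2 * t), g (z + prj M (pt e t (s, i + 1) + cn k)) := by
    intro s hs
    rw [mem_range] at hs
    have a1 := tele (f := fun i => w (pt e t (s, i)))
      (g := fun i => g (z + prj M (pt e t (s, i + 1) + cn k))) (2 * t) fun i hi => by
      have := step (pt e t (s, i + 1)) (zd_pt e (by omega) (by omega))
      rwa [← pt_succ] at this
    have a2 := hA _ ((pt_top e t s).trans (by omega))
    have z1 : zd (pt e t (s, 2 * t)) 0 ≤ r := (zd_pt e (by omega) le_rfl).trans (by omega)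
    have a3 := hw _ z1 fun h' => h.out_ray (t := t) (by omega)
      (by have := pt_bot e t s; omega) ((hI _ z1).1 h')
    linarith
  have zz : ∀ p ∈ range (r / 64 + 1) ×ˢ range (2 * t), zd (pt e t (p.1, p.2 + 1) + cn k) 0 ≤ r := by
    intro p hp
    rw [mem_product, mem_range, mem_range] at hp
    have := zd_add0 (pt e t (p.1, p.2 + 1)) (cn k)
    have := zd_cn k
    have := zd_pt e (t := t) (s := p.1) (i := p.2 + 1) (by omega) (by omega)
    omega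
  have tot : ∑ p ∈ range (r / 64 + 1) ×ˢ range (2 * t),
      g (z + prj M (pt e t (p.1, p.2 + 1) + cn k)) ≤ ∑ x ∈ ball z r, g x := by
    rw [← sum_image (g := fun p : ℕ × ℕ => z + prj M (pt e t (p.1, p.2 + 1) + cn k)) (f := g)]
    · refine sum_le_sum_of_subset_of_nonneg (fun x hx => ?_) fun x _ _ => g0 x
      obtain ⟨p, hp, rfl⟩ := mem_image.1 hx
      exact G.mem_ball.2 ((GeoA.tdist_le_zd z _).trans (zz p hp))
    · intro p hp p' hp' h'
      have := pt_inj e t (add_right_cancel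
        (prj_inj (zz p hp) (zz p' hp') hM (add_left_cancel h')))
      simp only [Prod.ext_iff] at this ⊢
      omega
  rw [sum_product] at tot
  have b1 := (sum_le_sum line).trans tot
  rw [sum_const, card_range, nsmul_eq_mul] at b1
  have b2 : ∑ x ∈ ball z r, g x ≤ C * l2sq (ball z r) φ := by
    rw [l2sq, mul_sum]
    exact sum_le_sum fun x _ => (hχ M φ x).2
  have b3 : (r : ℝ) ≤ 64 * ((r / 64 + 1 : ℕ) : ℝ) := by exact_mod_cast (by omega)
  nlinarith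

end IN5b

end Vale.Agent.P144Z
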