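import Vale.Agent.P144D.I.N5b.NearB
import Vale.Agent.P144D.I.N5b.Cut

/-!
The lower bound on the Green function between two marked half-edges.
-/

namespace Vale.Agent.P144Z

open Finset Matrix

open IN5b Classical in
theorem twoPt_of (hS : SrcStmt) (hA : NearA) (hB : NearB') (hH : HarnStmt) (hG : GapU) :
    TwoPt := by
  intro c hc
  obtain ⟨CA, LA, hA⟩ := hA c hc
  obtain ⟨η, η0, CB, LB, hB⟩ := hB c hc
  obtain ⟨c5, c50, H5⟩ := hH 5
  obtain ⟨Γ, G1, hG⟩ := hG
  refine ⟨η, η0, CA + CB + 3, LA + LB + 1, fun L hL => ?_⟩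
  obtain ⟨κA, κA0, hA⟩ := hA L (by omega)
  obtain ⟨κB, κB0, hB⟩ := hB L (by omega)
  refine ⟨min (min κA κB) (1 / 100), by positivity, fun N => ?_⟩
  obtain ⟨cA, cA0, JA, hA⟩ := hA N
  set c' := (min c5 1) ^ (N + 1) * cA with hc'
  have c'0 : 0 < c' := by positivity
  obtain ⟨cB, cB0, JB, hB⟩ := hB N ((Γ * (N + 1) * N) ^ 2 / c')
  refine ⟨√(cB * c'), by positivity, JA + JB + 2, fun J hJ M _ I Ia Ib T q a b ea eb ua ub νa νb
    hC sa sb ma mb na nb hq hqT hT hM cha chb φ hφ => ?_⟩
  have k0 : 0 ≤ min (min κA κB) (1 / 100 : ℝ) := by positivity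
  have g1 := sc_ge (L := L) (j := J) (by omega) (by omega)
  have q1 : CA * sc L J + CB * sc L J + 3 * sc L J ≤ q := by rwa [add_mul, add_mul] at hq
  have lf : ∀ (I' : Finset (Tor M)) (z : Tor M), Side I I' z (16 * q) → TouchT I' z →
      zd (lft z) 0 ≤ T + 1 := by
    intro I' z s ⟨k, hk⟩
    have := hC.box _ ((s z (by rw [tdist_self]; omega) ⟨k, hk⟩ k).2 hk)
    have := tdist_triangle z (z - prj M (cn k)) 0
    have := GeoA.tdist_le_zd z (-cn k)
    rw [IConv.prj_neg, ← sub_eq_add_neg, zd_neg0, tdist_comm] at this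
    have := zd_cn k
    rw [IConv.zd_lft_zero]
    omega
  have xa := lf Ia a sa ma.touch
  have xb := lf Ib b sb mb.touch
  have sa0 := sa a (by rw [tdist_self]; omega) ma.touch
  obtain ⟨u, w, u1, w1, -, u2⟩ := hS M I T (lft a) (ea + 2) φ hC.box hC.conn hM (by omega) xa
    (by rw [prj_lft, IConv.pwI_hedge_zero, sa0, sa0]; exact IConv.pwI_hedge_zero.1 ma.rem')
    (by rwa [prj_lft])
  have a1 := hA J (by omega) M I Ia T q (lft a) ea ua νa η φ u w hC.box xa (by rwa [prj_lft])
    (by rw [prj_lft]; exact ma.mono ((min_le_left _ _).trans (min_le_left _ _)) le_rfl)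
    (by omega) hqT hT hM (by rwa [prj_lft]) (by rwa [prj_lft]) u1 w1 u2
  obtain ⟨n, hn, p, p0, pn, p1, p2⟩ := hC.chain
  have pT : ∀ i ≤ n, zd (lft (p i)) 0 ≤ T := fun i hi => by
    rw [IConv.zd_lft_zero]
    exact hC.box _ (p2 i hi _ (by rw [tdist_self]; omega))
  have pe : ∀ i ≤ n, ∀ (z : Tor M) (e : Fin 4), zd (lft z) 0 ≤ T + 1 →
      p i = z + prj M ((8 * q) • st4 e) → lft (p i) = lft z + (8 * q) • st4 e := by
    intro i hi z e hz h
    refine prj_inj (M := M) (s := 10 * T) ((pT i hi).trans (by omega)) ?_ (by omega) ?_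
    · have := zd_add0 (lft z) ((8 * q) • st4 e)
      have := zd_smul (8 * q) e
      omega
    · rw [G.prj_add, prj_lft, prj_lft, h]
  have ch := chain_sq (m := q / 3) (n := n) (p := fun i => lft (p i)) c50 H5 (by omega)
    (w := w) (A := cA * νa J ^ 2) (by positivity)
    (fun i hi => by
      have := GeoA.zd_tri (lft (p (i + 1))) 0 (lft (p i))
      have := pT i hi.le
      have := pT (i + 1) hi
      rw [GeoA.zd_comm 0] at *
      rw [← IConv.tdist_prj (M := M) (by omega), prj_lft, prj_lft]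
      exact (p1 i hi).trans (by omega))
    (fun i hi v hv => (w1 v (by
      have := GeoA.zd_tri v (lft (p i)) 0; have := pT i hi; omega)).1)
    (fun i hi v hv => (w1 v (by
      have := GeoA.zd_tri v (lft (p i)) 0; have := pT i hi; omega)).2.2 (p2 i hi _ (by
        have := IConv.tdist_prj_le_zd (M := M) v (lft (p i))
        rw [prj_lft] at this
        omega)))
    (fun v hv => a1 v (by rw [← pe 0 (by omega) a ea xa p0]; omega)) n le_rfl
  simp only [pe n le_rfl b eb xb pn] at ch
  have pb : ∀ v, prj M (lft b + v) = b + prj M v := fun v => by rw [G.prj_add, prj_lft]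
  have zb : ∀ v, zd (lft b + v) 0 ≤ T + 1 + zd v 0 := fun v => by
    have := zd_add0 (lft b) v; omega
  obtain ⟨S, ν, cS, cI⟩ := cn_of mb k0 (min_le_right _ _) (by omega)
  set f : Tor M × Fin 4 → ℝ := fun s => if s.1 ∈ ball b (3 * sc L J) then cut Ib φ s else 0
    with hf
  have d1 : f ⬝ᵥ f ≤ (Γ * (N + 1) * N * νa J) ^ 2 * sc L J := by
    have at1 := cha.pos (J - 1) (by omega) (by omega)
    rw [show J - 1 + 1 = J by omega] at at1
    refine dual sa (by omega) ma.touch (by omega) at1.dom' (fun ψ => ?_) hφ (fun s => ?_)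
      fun s h1 h2 => ?_
    · refine (hG M I T N (by omega) (by omega) hC.box hC.tr ψ).trans
        (mul_le_mul_of_nonneg_right (pow_le_pow_left₀ (by positivity) ?_ 2)
          (E4.l2sq_univ (Dm (pwI I) *ᵥ ψ) ▸ E4.l2sq_nonneg _ _))
      rw [mul_assoc _ (N : ℝ)]
      exact mul_le_mul_of_nonneg_left (by exact_mod_cast hT) (by positivity)
    · simp only [hf, cut]
      split_ifs <;> simp
    · simp only [hf]
      split_ifs with h
      · exact cut_neg (fun h3 => disj sa sb mb k0 (min_le_right _ _) na (ℓ := sc L J) (by omega)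
          (by omega) h1 (E4.mem_ball.1 h) h2 h3) φ s.2
      · rfl
  have b1 := hB J (by omega) M Ib q b eb ub νb (cut Ib φ) (fun v => u (lft b + v))
    (fun v => if b + prj M v ∈ Ib then w (lft b + v) else 0) (c' * νa J ^ 2)
    (mb.mono ((min_le_left _ _).trans (min_le_right _ _)) le_rfl) (by omega) (by omega) (by omega)
    chb (fun s hs => ?_) (by positivity) (fun v k hv ht => ?_) (fun v hv => ?_) (fun v hv => ?_) ?_
  · rw [cut_pos mb.touch] at b1
    refine (le_abs_self _).trans (sq_le_sq.1 ?_)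
    rw [mul_pow, mul_pow, Real.sq_sqrt (by positivity)]
    linarith
  · by_cases h : TouchT Ib s.1
    · rw [cut_D1 sb (hs.trans (by omega)) h, hφ, Pi.single_eq_of_ne]
      intro h'
      have e : s.1 = a := congrArg Prod.fst h'
      exact nb ⟨e ▸ hs.trans (by omega), e ▸ h⟩
    · exact cut_D0 h _ _
  · have := zb v
    have h1 := u1 (lft b + v) k (by omega)
    have e1 : b + prj M (v - cn k) = b + prj M v - prj M (cn k) := by
      rw [G.prj_sub, add_sub_assoc]
    rw [pb, add_sub_assoc] at h1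
    simp only [chi, cut_pos ht] at h1 ⊢
    split_ifs with h
    · exact h1
    · have := zb (v - cn k)
      have := zd_add0 v (-cn k)
      have := zd_cn k
      rw [zd_neg0, ← sub_eq_add_neg] at *
      rwa [(w1 _ (by omega)).2.1 (by
        rw [pb, e1, sb _ ((GeoA.tdist_le_zd b v).trans (by omega)) ht, ← e1]; exact h)] at h1
  · have := zb v
    refine ⟨?_, fun h => if_neg h, fun h => ?_⟩
    · split_ifs
      · exact (w1 _ (by omega)).1
      · rfl
    · have t := GeoA.tdist_le_zd b v
      have h1 := (w1 (lft b + v) (by omega)).2.2 (by rw [pb]; exact (side_step sb (by omega) h 0).1)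
      refine le_of_eq_of_le (sum_congr rfl fun d _ => ?_) h1
      simp only [if_pos h, add_assoc]
      split_ifs with h'
      · rfl
      · have := zb (v + st4 d)
        have := zd_add0 v (st4 d)
        have := zd_st4 d
        rw [(w1 (lft b + (v + st4 d)) (by omega)).2.1
          (by rw [pb, (side_step sb (by omega) h d).2]; exact h')]
  · have := GeoA.zd_tri v ((8 * q) • st4 eb) 0
    have := zd_smul (8 * q) eb
    simp only [if_pos ((cI v (by omega)).2 (cS.in_ray (t := 8 * q) (by omega) (by omega)))]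
    refine le_trans ?_ (ch (lft b + v) (by rw [zd_shift]; omega))
    rw [hc', mul_assoc]
    refine mul_le_mul_of_nonneg_right ?_ (by positivity)
    exact (pow_le_pow_of_le_one (by positivity) (min_le_right _ _) (by omega)).trans
      (pow_le_pow_left₀ (by positivity) (min_le_left _ _) _)
  · have e1 : l2sq (ball b (3 * sc L J)) (cut Ib φ) = l2sq (ball b (3 * sc L J)) f :=
      E4.l2sq_congr fun s hs => (if_pos hs).symm
    rw [e1]
    refine ((E4.l2sq_mono (subset_univ _) f).trans (E4.l2sq_univ f).le).trans (d1.trans_eq ?_)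
    field_simp

end Vale.Agent.P144Z
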